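import Vale.Agent.P022.H477.VALX
import Vale.Agent.P011.W.Compl

/-! # P022-CFT, [BCV]: base change of local norms to the field `L'` of a crossing -/

open NumberField IsDedekindDomain TensorProduct Finset

noncomputable section

namespace Vale.Agent.P022.C.H111

open Vale.Agent.P022.C

section base

variable {K L L' E : Type} [Field K] [Field L] [Field L'] [Field E]
    [Algebra K L] [Algebra K L'] [Algebra K E] [Algebra L E] [Algebra L' E]
    [IsScalarTower K L E] [IsScalarTower K L' E]

/-- `s` as an automorphism over `L'` -/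
def sE (s : E ≃ₐ[K] E) (h : ∀ x : L', s (algebraMap L' E x) = algebraMap L' E x) :
    E ≃ₐ[L'] E :=
  AlgEquiv.ofRingEquiv (f := s.toRingEquiv) h

theorem sE_apply (s : E ≃ₐ[K] E) (h : ∀ x : L', s (algebraMap L' E x) = algebraMap L' E x)
    (x : E) : sE s h x = s x := rfl

theorem sE_pow_apply (s : E ≃ₐ[K] E) (t : E ≃ₐ[L'] E) (h : ∀ x, t x = s x) (i : ℕ) (x : E) :
    (t ^ i) x = (s ^ i) x := by
  induction i generalizing x with
  | zero => rfl
  | succ i ih => rw [pow_succ, pow_succ, AlgEquiv.mul_apply, AlgEquiv.mul_apply, ih, h]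

theorem tw_tmul (R : Type) [Field R] [Algebra K R] (σ : L ≃ₐ[K] L) (r : R) (x : L) :
    tw R σ (r ⊗ₜ[K] x) = r ⊗ₜ[K] σ x := rfl

/-- base change of norms -/
theorem nm_base (σ : L ≃ₐ[K] L) (t : E ≃ₐ[L'] E) (n : ℕ)
    (ht : ∀ x : L, t (algebraMap L E x) = algebraMap L E (σ x))
    (R R' : Type) [Field R] [Algebra K R] [Field R'] [Algebra L' R'] (g : R →+* R')
    (hg : ∀ x : K, g (algebraMap K R x) = algebraMap L' R' (algebraMap K L' x)) (a : K)
    (h : Nm σ n R a) : Nm t n R' (algebraMap K L' a) := by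
  letI : Algebra K (R' ⊗[L'] E) :=
    ((algebraMap L' (R' ⊗[L'] E)).comp (algebraMap K L')).toAlgebra
  have halg : ∀ x : K, algebraMap K (R' ⊗[L'] E) x =
    algebraMap L' (R' ⊗[L'] E) (algebraMap K L' x) := fun x => rfl
  let f : R →ₐ[K] (R' ⊗[L'] E) :=
    { toRingHom := (Algebra.TensorProduct.includeLeftRingHom (R := L') (A := R') (B := E)).comp g
      commutes' := fun x => by
        change g (algebraMap K R x) ⊗ₜ[L'] (1 : E) = _
        rw [hg, halg]
        rfl }
  let q : L →ₐ[K] (R' ⊗[L'] E) :=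
    { toRingHom := (Algebra.TensorProduct.includeRight (R := L') (A := R') (B := E)).toRingHom.comp
        (algebraMap L E)
      commutes' := fun x => by
        change (Algebra.TensorProduct.includeRight (R := L') (A := R') (B := E))
          (algebraMap L E (algebraMap K L x)) = _
        rw [← IsScalarTower.algebraMap_apply K L E, IsScalarTower.algebraMap_apply K L' E,
          AlgHom.commutes, halg] }
  let Φ : (R ⊗[K] L) →ₐ[K] (R' ⊗[L'] E) := Algebra.TensorProduct.productMap f q
  have hΦ : ∀ (r : R) (x : L), Φ (r ⊗ₜ[K] x) = g r ⊗ₜ[L'] (algebraMap L E x) := by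
    intro r x
    change f r * q x = _
    change (g r ⊗ₜ[L'] (1 : E)) * ((1 : R') ⊗ₜ[L'] (algebraMap L E x)) = _
    rw [Algebra.TensorProduct.tmul_mul_tmul, mul_one, one_mul]
  have hti : ∀ (i : ℕ) (x : L), (t ^ i) (algebraMap L E x) = algebraMap L E ((σ ^ i) x) := by
    intro i
    induction i with
    | zero => intro x; rfl
    | succ i ih =>
      intro x
      rw [pow_succ, pow_succ, AlgEquiv.mul_apply, AlgEquiv.mul_apply, ht, ih]
  have heq : ∀ (i : ℕ) (y : R ⊗[K] L), Φ (tw R (σ ^ i) y) = tw R' (t ^ i) (Φ y) := by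
    intro i y
    induction y using TensorProduct.induction_on with
    | zero => simp
    | tmul r x => rw [tw_tmul, hΦ, hΦ, tw_tmul, hti]
    | add y z hy hz => rw [map_add, map_add, map_add, map_add, hy, hz]
  obtain ⟨y, hy⟩ := h
  refine ⟨Φ y, ?_⟩
  have := congrArg Φ hy
  rw [map_prod, AlgHom.commutes, halg] at this
  rw [← this]
  exact Finset.prod_congr rfl fun i _ => (heq i y).symm

end base

section cross

variable {K L L' E : Type} [Field K] [NumberField K] [Field L] [NumberField L]
    [Field L'] [NumberField L'] [Field E] [NumberField E] [Algebra K L] [Algebra K L']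
    [Algebra K E] [Algebra L E] [Algebra L' E] [IsScalarTower K L E] [IsScalarTower K L' E]
    {n n' : ℕ} {σ : L ≃ₐ[K] L} {σ' : L' ≃ₐ[K] L'} {s s' : E ≃ₐ[K] E}

/-- local norms of `L / K` at `v` are local norms of `E / L'` at `w ∣ v` -/
theorem bcv (t : E ≃ₐ[L'] E) (ht : ∀ x : L, t (algebraMap L E x) = algebraMap L E (σ x))
    {v : HeightOneSpectrum (𝓞 K)} {w : HeightOneSpectrum (𝓞 L')}
    (hw : dn K w.asIdeal = v.asIdeal) (a : K) (h : Nm σ n (v.adicCompletion K) a) :
    Nm t n (w.adicCompletion L') (algebraMap K L' a) := by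
  obtain ⟨g, hg⟩ := Vale.Agent.P011.W.completion_map hw
  exact nm_base σ t n ht _ _ g hg a h

/-- local norms at the real places -/
theorem bcr (t : E ≃ₐ[L'] E) (ht : ∀ x : L, t (algebraMap L E x) = algebraMap L E (σ x))
    {φ : K →+* ℝ} {φ' : L' →+* ℝ} (hφ : ∀ x, φ' (algebraMap K L' x) = φ x) (a : K)
    (h : NmR σ n φ a) : NmR t n φ' (algebraMap K L' a) := by
  letI : Algebra K ℝ := φ.toAlgebra
  letI : Algebra L' ℝ := φ'.toAlgebra
  exact nm_base σ t n ht ℝ ℝ (RingHom.id ℝ) (fun x => (hφ x).symm) a h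

variable (c : Cross K n n' σ σ' s s')
include c

theorem rankE : Module.finrank L' E = n := by
  have h := Module.finrank_mul_finrank K L' E
  rw [c.rank, c.cyc'.rank, mul_comm] at h
  exact Nat.eq_of_mul_eq_mul_right c.cyc'.pos h

theorem pow_s_L (i : ℕ) (x : L) : (s ^ i) (algebraMap L E x) = algebraMap L E ((σ ^ i) x) := by
  induction i generalizing x with
  | zero => rfl
  | succ i ih => rw [pow_succ, pow_succ, AlgEquiv.mul_apply, AlgEquiv.mul_apply, c.sL, ih]

theorem pow_s_L' (i : ℕ) (x : L') : (s ^ i) (algebraMap L' E x) = algebraMap L' E x := by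
  induction i generalizing x with
  | zero => rfl
  | succ i ih => rw [pow_succ, AlgEquiv.mul_apply, c.sL', ih]

theorem pow_s'_L (i : ℕ) (x : L) : (s' ^ i) (algebraMap L E x) = algebraMap L E x := by
  induction i generalizing x with
  | zero => rfl
  | succ i ih => rw [pow_succ, AlgEquiv.mul_apply, c.s'L, ih]

theorem pow_s'_L' (i : ℕ) (x : L') :
    (s' ^ i) (algebraMap L' E x) = algebraMap L' E ((σ' ^ i) x) := by
  induction i generalizing x with
  | zero => rfl
  | succ i ih => rw [pow_succ, pow_succ, AlgEquiv.mul_apply, AlgEquiv.mul_apply, c.s'L', ih]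

theorem s_pow_one {i : ℕ} (h : σ ^ i = 1) : s ^ i = 1 := by
  refine c.ext _ (fun x => ?_) fun x => pow_s_L' c i x
  rw [pow_s_L c, h]; rfl

theorem σ_pow_one {i : ℕ} (h : s ^ i = 1) : σ ^ i = 1 := by
  ext x
  apply (algebraMap L E).injective
  rw [← pow_s_L c, h]; rfl

theorem s'_pow_one {i : ℕ} (h : σ' ^ i = 1) : s' ^ i = 1 := by
  refine c.ext _ (fun x => pow_s'_L c i x) fun x => ?_
  rw [pow_s'_L' c, h]; rfl

/-- `E / L'` is cyclic of degree `n` -/
theorem cycE (t : E ≃ₐ[L'] E) (ht : ∀ x, t x = s x) : Cyc L' n t where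
  pos := c.cyc.pos
  rank := rankE c
  ord := by
    have h1 : ∀ i : ℕ, t ^ i = 1 ↔ σ ^ i = 1 := by
      intro i
      constructor
      · intro h
        apply σ_pow_one c
        ext x
        rw [← sE_pow_apply s t ht, h]
        rfl
      · intro h
        have := s_pow_one c h
        ext x
        rw [sE_pow_apply s t ht, this]
        rfl
    rw [← c.cyc.ord]
    apply Nat.dvd_antisymm
    · rw [orderOf_dvd_iff_pow_eq_one, h1, pow_orderOf_eq_one]
    · rw [orderOf_dvd_iff_pow_eq_one, ← h1, pow_orderOf_eq_one]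

end cross

end Vale.Agent.P022.C.H111
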