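import Vale.Agent.P022.H111.Bcv

/-! # P022-CFT, [LOCE]: `a` is a local norm of `E / L'` at all places, hence a norm -/

open NumberField IsDedekindDomain TensorProduct Finset

noncomputable section

namespace Vale.Agent.P022.C.H111

open Vale.Agent.P022.C

section primes

variable {K L E : Type} [Field K] [NumberField K] [Field L] [NumberField L] [Field E]
  [NumberField E] [Algebra K L] [Algebra K E] [Algebra L E] [IsScalarTower K L E]

/-- the place below -/
theorem exists_dn (w : HeightOneSpectrum (𝓞 L)) :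
    ∃ v : HeightOneSpectrum (𝓞 K), dn K w.asIdeal = v.asIdeal := by
  have hp := w.isPrime
  refine ⟨⟨dn K w.asIdeal, Ideal.IsPrime.comap _, fun h => ?_⟩, rfl⟩
  exact w.ne_bot (Ideal.eq_bot_of_comap_eq_bot h)

/-- a place above -/
theorem exists_up (v : HeightOneSpectrum (𝓞 K)) :
    ∃ w : HeightOneSpectrum (𝓞 L), dn K w.asIdeal = v.asIdeal := by
  have hv := v.isPrime
  obtain ⟨P, hP, h⟩ := Ideal.exists_ideal_over_prime_of_isIntegral_of_isDomain (S := 𝓞 L)
    v.asIdeal (by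
      rw [(RingHom.injective_iff_ker_eq_bot _).mp
        (FaithfulSMul.algebraMap_injective (𝓞 K) (𝓞 L))]
      exact bot_le)
  refine ⟨⟨P, hP, fun h0 => v.ne_bot ?_⟩, h⟩
  rw [← h, h0]
  exact (RingHom.injective_iff_ker_eq_bot _).mp (FaithfulSMul.algebraMap_injective (𝓞 K) (𝓞 L))

theorem dn_dn (P : Ideal (𝓞 E)) : dn K (dn L P) = dn K P := by
  change Ideal.comap _ (Ideal.comap _ P) = Ideal.comap _ P
  rw [Ideal.comap_comap, ← IsScalarTower.algebraMap_eq (𝓞 K) (𝓞 L) (𝓞 E)]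

/-- `v(x) = 1` goes up -/
theorem val_one_up {v : HeightOneSpectrum (𝓞 K)} {w : HeightOneSpectrum (𝓞 L)}
    (h : dn K w.asIdeal = v.asIdeal) {x : K} (hx : v.valuation K x = 1) :
    w.valuation L (algebraMap K L x) = 1 := by
  obtain ⟨e, _, he⟩ := Vale.Agent.P011.Arith.val_above h
  rw [he, hx, one_pow]

end primes

section cross

variable {K L L' E : Type} [Field K] [NumberField K] [Field L] [NumberField L]
    [Field L'] [NumberField L'] [Field E] [NumberField E] [Algebra K L] [Algebra K L']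
    [Algebra K E] [Algebra L E] [Algebra L' E] [IsScalarTower K L E] [IsScalarTower K L' E]
    {n n' : ℕ} {σ : L ≃ₐ[K] L} {σ' : L' ≃ₐ[K] L'} {s s' : E ≃ₐ[K] E}

/-- the places of `L'` -/
theorem loce (hLN : LNStmt) (hFRB : FRBStmt) (c : Cross K n n' σ σ' s s')
    (t : E ≃ₐ[L'] E) (ht : ∀ x, t x = s x) (a : K) (ha : a ≠ 0)
    (S : Set (HeightOneSpectrum (𝓞 K))) (hS : ∀ v ∈ S, Nm σ n (v.adicCompletion K) a)
    (hU : ∀ v ∉ S, ∀ P : Ideal (𝓞 L), P.IsPrime → dn K P = v.asIdeal → Unr σ P)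
    (hV : ∀ v ∉ S, v.valuation K a ≠ 1 → ∀ P : Ideal (𝓞 L'), P.IsPrime →
      dn K P = v.asIdeal → Unr σ' P ∧ ∀ b : ℕ, Frob (σ' ^ b) (Ideal.absNorm v.asIdeal) P →
        ∀ k : ℕ, n' ∣ b * k → n ∣ k)
    (w : HeightOneSpectrum (𝓞 L')) :
    Nm t n (w.adicCompletion L') (algebraMap K L' a) := by
  have htL : ∀ x : L, t (algebraMap L E x) = algebraMap L E (σ x) := fun x => by
    rw [ht, c.sL]
  obtain ⟨v, hv⟩ := exists_dn (K := K) w
  by_cases hvS : v ∈ S
  · exact bcv t htL hv a (hS v hvS)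
  have ha' : algebraMap K L' a ≠ 0 := (map_ne_zero _).mpr ha
  obtain ⟨P, hP⟩ := exists_up (K := L') (L := E) w
  have hPK : dn K P.asIdeal = v.asIdeal := by rw [← dn_dn (L := L'), hP, hv]
  have hpr := P.isPrime
  have hPL : Unr σ (dn L P.asIdeal) :=
    hU v hvS _ (Ideal.IsPrime.comap _) (by rw [dn_dn, hPK])
  have hUt : Unr t P.asIdeal := by
    intro i hi
    have h1 : σ ^ i = 1 := by
      apply hPL
      intro x
      change algebraMap (𝓞 L) (𝓞 E) _ ∈ P.asIdeal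
      have h2 := hi (algebraMap (𝓞 L) (𝓞 E) x)
      convert h2 using 1
      apply RingOfIntegers.ext
      rw [map_sub]
      change algebraMap L E ((σ ^ i) (x : L)) - algebraMap L E (x : L) =
        (t ^ i) (algebraMap L E (x : L)) - algebraMap L E (x : L)
      rw [sE_pow_apply s t ht, pow_s_L c]
    have h3 := s_pow_one c h1
    ext x
    rw [sE_pow_apply s t ht, h3]
    rfl
  refine hLN L' E n t (cycE c t ht) w P.asIdeal P.isPrime hP hUt _ ha' ?_
  by_cases hva : v.valuation K a = 1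
  · exact Or.inl (val_one_up hv hva)
  right
  have hw' := hV v hvS hva w.asIdeal w.isPrime hv
  have hU' : Unr σ' (dn L' P.asIdeal) := by rw [hP]; exact hw'.1
  obtain ⟨-, a₁, b₁, -, -, hF', hD⟩ := hFRB K L L' E n n' σ σ' s s' c P hPL hU'
  intro i hi
  obtain ⟨k, hk⟩ := hD (s ^ i) (by
    have e : RingOfIntegers.mapRingHom ((s ^ i : E ≃ₐ[K] E) : E →+* E) =
        RingOfIntegers.mapRingHom ((t ^ i : E ≃ₐ[L'] E) : E →+* E) := by
      congr 1
      ext x
      exact (sE_pow_apply s t ht i x).symm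
    rw [e]
    exact hi)
  have hcomm : Commute s s' := Vale.Agent.P022.H477.CF.cross_comm c
  rw [hPK, hP] at hF'
  have hσ' : σ' ^ (b₁ * k) = 1 := by
    ext x
    apply (algebraMap L' E).injective
    have h1 : (s ^ i) (algebraMap L' E x) = ((s ^ a₁ * s' ^ b₁) ^ k) (algebraMap L' E x) := by
      rw [hk]
    rw [pow_s_L' c, (hcomm.pow_pow a₁ b₁).mul_pow, AlgEquiv.mul_apply, ← pow_mul, ← pow_mul,
      pow_s'_L' c, pow_s_L' c] at h1
    rw [← h1]
    rfl
  have hn' : n' ∣ b₁ * k := by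
    rw [← c.cyc'.ord]
    exact orderOf_dvd_of_pow_eq_one hσ'
  have hnk : n ∣ k := hw'.2 b₁ hF' k hn'
  have hs1 : s ^ (a₁ * k) = 1 := by
    apply s_pow_one c
    obtain ⟨q, rfl⟩ := hnk
    rw [← c.cyc.ord, show a₁ * (orderOf σ * q) = orderOf σ * (a₁ * q) by ring, pow_mul,
      pow_orderOf_eq_one, one_pow]
  have hsi : s ^ i = 1 := by
    rw [hk, (hcomm.pow_pow a₁ b₁).mul_pow, ← pow_mul, ← pow_mul, hs1, s'_pow_one c hσ', one_mul]
  ext x
  rw [sE_pow_apply s t ht, hsi]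
  rfl

/-- the real places: `n` odd -/
theorem nmR_odd {L : Type} [Field L] [Algebra K L] (σ : L ≃ₐ[K] L) {n : ℕ} (hn : Odd n)
    (φ : K →+* ℝ) (a : K) : NmR σ n φ a := by
  let _ : Algebra K ℝ := φ.toAlgebra
  obtain ⟨r, hr⟩ : ∃ r : ℝ, r ^ n = φ a := by
    rcases le_total 0 (φ a) with h | h
    · exact ⟨_, Real.rpow_inv_natCast_pow h hn.pos.ne'⟩
    · refine ⟨-(-(φ a)) ^ ((n : ℝ)⁻¹), ?_⟩
      rw [hn.neg_pow, Real.rpow_inv_natCast_pow (by linarith) hn.pos.ne', neg_neg]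
  refine ⟨algebraMap ℝ _ r, ?_⟩
  have : ∀ i ∈ range n, tw ℝ (σ ^ i) (algebraMap ℝ (ℝ ⊗[K] L) r) = algebraMap ℝ _ r :=
    fun i _ => AlgEquiv.commutes _ _
  rw [Finset.prod_congr rfl this, Finset.prod_const, Finset.card_range, ← map_pow, hr]
  rfl

/-- the input of the crossing -/
theorem exists_gamma (hHNT : HNTStmt) (hLN : LNStmt) (hFRB : FRBStmt)
    (c : Cross K n n' σ σ' s s') (a : K) (ha : a ≠ 0)
    (S : Set (HeightOneSpectrum (𝓞 K))) (hS : ∀ v ∈ S, Nm σ n (v.adicCompletion K) a)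
    (hU : ∀ v ∉ S, ∀ P : Ideal (𝓞 L), P.IsPrime → dn K P = v.asIdeal → Unr σ P)
    (hV : ∀ v ∉ S, v.valuation K a ≠ 1 → ∀ P : Ideal (𝓞 L'), P.IsPrime →
      dn K P = v.asIdeal → Unr σ' P ∧ ∀ b : ℕ, Frob (σ' ^ b) (Ideal.absNorm v.asIdeal) P →
        ∀ k : ℕ, n' ∣ b * k → n ∣ k)
    (hR : Odd n ∨ IsEmpty (L' →+* ℝ)) :
    ∃ γ : E, ∏ i ∈ range n, (s ^ i) γ = algebraMap K E a := by
  let t : E ≃ₐ[L'] E := sE s c.sL'
  have ht : ∀ x, t x = s x := fun x => rfl
  have hloc : Loc t n (algebraMap K L' a) := by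
    refine ⟨loce hLN hFRB c t ht a ha S hS hU hV, fun φ => ?_⟩
    rcases hR with h | h
    · exact nmR_odd t h φ _
    · exact (h.false φ).elim
  obtain ⟨y, hy⟩ := hHNT L' E n t (cycE c t ht) (algebraMap K L' a) ((map_ne_zero _).mpr ha) hloc
  refine ⟨y, ?_⟩
  rw [IsScalarTower.algebraMap_apply K L' E, ← hy]
  exact Finset.prod_congr rfl fun i _ => (sE_pow_apply s t ht i y).symm

end cross

end Vale.Agent.P022.C.H111
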